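import Crest.Agent.X212.Cl59.Lp
import Crest.Agent.X212.Lix26.Defs
import Crest.Agent.X212.Clr59.Main
import Crest.Agent.X212.Lns4.Lin
import Crest.Agent.X212.Rod53.Unk
import Crest.Agent.X212.Loc8.Sc

/-!
# Row 212, LIX-CL (helper59), file 2: every flat limit is the end of a twist of the flat point
-/

set_option autoImplicit false
set_option linter.unusedSectionVars false
set_option maxHeartbeats 400000
noncomputable section
open Set Function Filter Topology Real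
open scoped ContDiff Manifold InnerProductSpace

namespace Crest.Agent.X212.Cl59
open An Sob92 Wz78 Pj41 Dfl49 Clr59 Nd18 Cyf70 Tmp64 Lix26 Lns95 Qab60 Rdc90
open M (Mf)
open Rod53 (S3' L4 sphD rot uB)
open Glue52 (dir)
open Abel74 (fm)
open Rf65 (dz ParY)

/-! ### the covering -/

/-- the generator -/
def ci : Circle := Circle.exp (π / 2)

theorem coe_ci : (ci : ℂ) = Complex.I := by
  rw [ci, Circle.coe_exp]; push_cast; exact Complex.exp_pi_div_two_mul_I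

/-- the deck transformation -/
def dk : S3' × ℝ → S3' × ℝ := Prod.map (sphD (n := 3) (rot ci ci)) id

theorem L4_dk (z : S3' × ℝ) : L4 (dk z).1 = Complex.I • L4 z.1 := by
  rw [← coe_ci]; exact Rod53.L4_rot _ _ _

theorem L4_it (k : ℕ) (z : S3' × ℝ) : L4 (dk^[k] z).1 = Complex.I ^ k • L4 z.1 ∧ (dk^[k] z).2 = z.2 := by
  induction k with
  | zero => simp
  | succ k ih => rw [iterate_succ_apply', L4_dk, ih.1, smul_smul, pow_succ']; exact ⟨rfl, ih.2⟩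

theorem root4 {ζ : ℂ} (h : ζ ^ 4 = 1) : ∃ k : ℕ, ζ = Complex.I ^ k ∧ (0 < ζ.re → ζ = 1) := by
  have : (ζ - 1) * (ζ - Complex.I) * (ζ + 1) * (ζ + Complex.I) = 0 := by
    linear_combination h + (1 - ζ ^ 2) * Complex.I_sq
  simp only [mul_eq_zero, sub_eq_zero, add_eq_zero_iff_eq_neg] at this
  rcases this with ((rfl | rfl) | rfl) | rfl
  exacts [⟨0, by simp⟩, ⟨1, by simp⟩, ⟨2, by simp⟩, ⟨3, by simp [pow_succ]⟩]

/-- the base point -/
def z0 : S3' × ℝ := (uB (1, 0), 0)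

theorem dk_z0 : dk z0 = (uB (ci, 0), 0) := Prod.ext ((Rod53.rot_uB _ _ _).trans (by simp)) rfl

theorem dir_uB (w : Circle × ℂ) : dir (L4 (uB w)).2 = w.1 := congrArg Prod.fst (Rod53.vB_uB w)

variable {Y : Mf 3} [CompactSpace Y.M] {κ : Type} [Fintype κ] {lam : Type} [Fintype lam]
  {D : YD Y.I Y.M κ lam}
  {E : Type} [NormedAddCommGroup E] [NormedSpace ℝ E] [FiniteDimensional ℝ E]
  [MeasurableSpace E] [BorelSpace E]
  {HM : Type} [TopologicalSpace HM] {I : ModelWithCorners ℝ E HM} [I.Boundaryless]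
  {M : Type} [TopologicalSpace M] [ChartedSpace HM M] [IsManifold I ∞ M] [T2Space M]
  [MeasurableSpace M] [BorelSpace M] [SecondCountableTopology M]
  {B : Base M (Option κ) lam} {G : Geo I M (Option κ) lam} (K : Nk D B G) {cv : S3' → Y.M}
  {β : YC Y.M κ lam} {r : ℕ} {c : Cfg M (Option κ) lam r} {Ω : Set M} {ξ : M → c.m.A} {x : M}

/-- the end -/
abbrev En0 : Set M := K.tm ⁻¹' Ioi 0

variable (cv) in
/-- the covering of the end -/
def pr (z : S3' × ℝ) : M := K.ψ (cv z.1, exp z.2)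

/-- the limit, seen on the end -/
abbrev bb (β : YC Y.M κ lam) : Cfg M (Option κ) lam 0 := pb K.ψ.symm (cy β)

variable {K}

theorem flat_ab (hB : B.OK I) (hG : G.OK B) (A : Ab B G Ω c ξ) (hx : x ∈ Ω)
    (h : fm G.F c.m c.W ξ x = 0) : c.m.Fg G.F c.W x = 0 := PiLp.ext fun s => by
  have := congrArg (· s) (c2_of_zero (F := G.F) h)
  rw [A.rd.Fg_eq hB hG A.adm.ok A.adm.conn hx, ← Abel74.k2_fm hG A.adm.conn]
  exact (congrArg (· • ξ x) this).trans (zero_smul _ _)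

theorem fo_of (hB : B.OK I) (hG : G.OK B) {O : Set M} (hO : IsOpen O) (a : AdmOn c B G O)
    (f : ∀ x ∈ O, c.m.Fg G.F c.W x = 0) : Fo B G c.W O := ⟨hB, hG.P, hO, a.ok, a.conn, f⟩

variable (hJ : Ioi 0 ⊆ K.J)
include hJ

theorem src (z : S3' × ℝ) : (cv z.1, exp z.2) ∈ K.ψ.source := K.mem_src.2 (hJ (exp_pos _))

theorem tgt (hx : x ∈ En0 K) : x ∈ K.ψ.target := K.tgt ▸ hJ hx

theorem cov (h : Cv4 cv) : Cov (En0 K) (pr K cv) dk z0 := by
  have c1 : Continuous (Prod.map cv exp) := h.ld.contMDiff.continuous.prodMap continuous_exp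
  have := Hz56.locConn (M := S3') (𝓡 3)
  refine ⟨K.ψ.continuousOn.comp_continuous c1 (src hJ), fun U hU => ?_,
    fun z => show 0 < K.tm _ from (K.tm_ψ _ (src hJ z)).symm ▸ exp_pos _, fun x hx => ?_,
    (sphD (n := 3) (rot ci ci)).continuous.prodMap continuous_id,
    fun z => congrArg (fun y => K.ψ (y, exp z.2)) ((h.dk _ _).2 ⟨_, Complex.I_pow_four, L4_dk z⟩).symm,
    Prod.ext (Rod53.sph_ext ((L4_it 4 z0).1.trans (by simp))) rfl, fun z z' e => ?_, isPreconnected_univ,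
    Loc8.sur_of_h1 isOpen_univ isPreconnected_univ (fun G _ => ?_) trivial⟩
  · rw [show pr K cv = K.ψ ∘ Prod.map cv exp from rfl, image_comp]
    exact K.ψ.isOpen_image_of_subset_source ((h.ld.isOpenMap.prodMap isOpenEmbedding_exp.isOpenMap) U hU)
      (image_subset_iff.2 fun z _ => src hJ z)
  · obtain ⟨y, hy⟩ := h.sj (K.ψ.symm x).1
    refine ⟨(y, log (K.tm x)), ?_⟩
    rw [pr, hy, exp_log hx, ← K.snd_symm (tgt hJ hx), K.ψ.right_inv (tgt hJ hx)]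
  · have e' := K.ψ.injOn (src hJ z) (src hJ z') e
    obtain ⟨ζ, k1, k2⟩ := (h.dk _ _).1 (congrArg Prod.fst e')
    obtain ⟨k, rfl, -⟩ := root4 k1
    exact ⟨k, Prod.ext (Rod53.sph_ext (k2.trans (L4_it k z).1.symm))
      ((exp_injective (congrArg Prod.snd e')).symm.trans (L4_it k z).2.symm)⟩
  · exact univ_prod_univ ▸ (Hz56.h1_sphere (by simp)).prod_convex convex_univ

theorem adm_bb (b : Bs D β) : AdmOn (bb K β) B G (En0 K) :=
  (One97.admOn_push K isOpen_univ (admOn_univ.2 b.adm.adm)).mono fun _ hx => ⟨tgt hJ hx, trivial⟩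

theorem fo_bb (hB : B.OK I) (hG : G.OK B) (b : Bs D β) : Fo B G (bb K β).W (En0 K) :=
  fo_of hB hG (isOpen_Ioi.preimage K.cont) (adm_bb hJ b) fun _ hx =>
    (K.rel'.Fg (tgt hJ hx) (cy β).W).trans (b.flat _)

theorem ps_push {T : Y.M × ℝ → En (Fin β.m.N)} (p : PS D.G (cy β).W (cy β).W univ T) :
    PS G (bb K β).W (bb K β).W (En0 K) fun x => T (K.ψ.symm x) :=
  ⟨fun _ hx => K.rel'.sm (tgt hJ hx) (p.sm _ trivial), fun _ _ => p.it _ trivial, fun x hx a => by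
    have q := p.par (K.ψ.symm x) trivial a
    erw [← K.rel'.D (tgt hJ hx) a (u := fun x => T (K.ψ.symm x)) (.of_forall fun _ => rfl)] at q
    exact q⟩

theorem std_of (b : Bs D β) (a : c.Adm B G) (f : ∀ x ∈ En0 K, c.m.Fg G.F c.W x = 0)
    {v : M → CL c.con.m.V (bb K β).m.V} (p : PI G.F c.con (bb K β) (En0 K) v) : K.Std c.con β 1 atTop := by
  have mp := nk_maps hJ (Subset.refl (En0 K))
  have li := fun x hx => K.ψ.left_inv (mp (a := x) hx).1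
  have q : PI D.Z (K.pb c.con) (cy β) (univ ×ˢ Ioi 0) fun x => v (K.ψ x) := by
    refine ⟨⟨fun x hx => K.rel.sm (mp hx).1 (p.iso.su _ (mp hx).2), fun x hx => ?_,
      fun x hx => p.iso.J _ (mp hx).2, fun x hx b => ?_, fun x hx s => ?_⟩, fun x hx b => ?_⟩
    · simpa only [bb, Nk.pb, Nd18.pb, pbM, li x hx] using! p.iso.iso _ (mp hx).2
    · simpa only [bb, Nk.pb, Nd18.pb, pbM, li x hx] using! p.iso.ρ _ (mp hx).2 b
    · simpa only [bb, Nk.pb, Nd18.pb, pbM, li x hx] using! p.iso.j _ (mp hx).2 s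
    · have := K.rel.D (mp hx).1 b (u := fun x => v (K.ψ x)) (u' := v) (.of_forall fun _ => rfl)
      have q := p.par _ (mp hx).2 b
      rw [← this] at q
      simpa only [bb, Nk.pb, Nd18.pb, pbM, li x hx] using! q
  have a' : c.con.Adm B G := ⟨a.ok, a.conn, contMDiff_const, fun _ => map_zero _, .inl rfl⟩
  exact ⟨_, _, Ioi_mem_atTop 0, hJ, (q.cl (isOpen_univ.prod isOpen_Ioi)
    (Fz.pb (c := c.con) ⟨f, fun _ _ => rfl⟩ hJ Subset.rfl) (fun x _ => b.zr x.1) _ 0 le_rfl).cls b.adm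
    isOpen_Ioi ((One97.admOn_pb K isOpen_univ (admOn_univ.2 a')).mono (nk_maps hJ (subset_univ _)))⟩

omit hJ

/-- a phase along `ξ` -/
def gc (ξ : M → c.m.A) (x : M) (w : Circle) : En (Fin c.m.N) :=
  (w : ℂ).re • c.m.p x + (w : ℂ).im • opL (ξ x)

theorem gx_gc (t : M → ℝ) : gx c.m ξ t x = gc ξ x (Circle.exp (t x)) := by
  rw [gc, Circle.coe_exp, Complex.exp_ofReal_mul_I_re, Complex.exp_ofReal_mul_I_im]; rfl

variable [DecidableEq lam] {D : YD Y.I Y.M κ (lam ⊕ lam)}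
  {B : Base M (Option κ) (lam ⊕ lam)} {G : Geo I M (Option κ) (lam ⊕ lam)} {K : Nk D B G}
  {d : Mdl K Ω} (h : d.OK) {c₀ c : Cfg M (Option κ) (lam ⊕ lam) r} {ξ₀ : M → c₀.m.A} {ξ : M → c.m.A}
include h

theorem jsub : Ioi 0 ⊆ K.J := fun _ hs => h.ins.one.J (show (0 : ℝ) < 1 * _ by simpa using hs)

theorem sub : En0 K ⊆ Ω := fun _ hs => h.ins.one.sub (show (0 : ℝ) < 1 * _ by simpa using hs)

theorem sm_al (b : Bool) : Dr59.Sm I (d.Ds.O b) (d.al b) := fun x hx =>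
  Lns4.smAt_al _ _ ((d.Ds.ch b).su x hx) ((d.Ds.ch b).sw x hx)

/-- the twist is locally trivial over the end -/
theorem loc_tw (f : Fo B G c₀.W (En0 K)) (R : Rp G c₀.W (En0 K) ξ₀) {j k : ℤ} (e : j * d.μ = k / 2)
    {S : Set M} (s2 : IsOpen S) (s4 : S ⊆ En0 K) (s5 : S ⊆ d.Ds.O false) (s6 : ∀ x ∈ S, d.Ds.w false x ≠ 0)
    {a : ℝ} (s7 : ∀ x ∈ S, SA I (fun y => br a (dir (d.Ds.w false y))) x) (a' : ℝ) :
    PS G c₀.W (ada G.F c₀ ξ₀ ((j / 2 : ℝ) • d.al false)).W S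
      (gx c₀.m ξ₀ fun x => k / 4 * br a (dir (d.Ds.w false x)) + a') := by
  have ch := d.Ds.ch false
  refine (R.mono s4).gx (f.mono s2 s4) (fun x hx => (SA.mul contMDiffAt_const (s7 x hx)).add
    contMDiffAt_const) fun b x hx => ?_
  have k1 := Lns4.al_flat (u := d.Ds.u false) d.P d.μ (by norm_num) (ch.sw x (s5 hx)) (s6 x hx)
    (h.fl false x (s5 hx) (s4 hx)).2.1
  have k2 : G.F.D b (fun x => k / 4 * br a (dir (d.Ds.w false x)) + a') x =
      k / 4 * Clr59.nu G.F (fun y => dir (d.Ds.w false y)) b x := by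
    rw [← D_br G.F (s7 x hx), Pre.D_def, Pre.D_def, dv_add' (SA.mul contMDiffAt_const (s7 x hx))
      contMDiffAt_const, dv_const, Pi.zero_apply, add_zero]
    exact dv_const_smul _ (s7 x hx).md
  change c₀.W b x + opL (c1 G.F ((j / 2 : ℝ) • d.al false) x b • ξ₀ x) = _
  have k3 : c1 G.F (d.al false) x = c1 G.F (-d.μ • Line51.ang I fun y => dir (d.Ds.w false y)) x := by
    simp only [Qab60.c1, Num57.k1, k1, Pi.smul_apply]
  rw [c1_smul, Pi.smul_apply, k3, c1_smul, k2, ← c1_ang G.F (Rod53.cm_dir (ch.sw x (s5 hx)) (s6 x hx)), map_smul, sub_eq_add_neg,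
    ← neg_smul]
  simp only [Pi.smul_apply, PiLp.smul_apply, smul_eq_mul]
  congr 2
  linear_combination (-1 / 2 * c1 G.F (Line51.ang I fun y => dir (d.Ds.w false y)) x b) * e

/-- the monodromy of the twist -/
theorem mn_tw (f : Fo B G c₀.W (En0 K)) (R : Rp G c₀.W (En0 K) ξ₀) {j k : ℤ} (e : j * d.μ = k / 2)
    {v : M → CL c₀.m.V c.m.V}
    (p : PI G.F (ada G.F c₀ ξ₀ ((j / 2 : ℝ) • d.al false)) c (d.Ds.O false) v) :
    Mn G c₀.W c.W (En0 K) (pr K d.cv) dk z0 ξ₀ (range uB ×ˢ univ)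
      (fun z => v (pr K d.cv z) ∘L gc ξ₀ (pr K d.cv z) (dir (L4 z.1).2 ^ k)) k := by
  have C := cov (jsub h) h.cv
  have ch := d.Ds.ch false
  have nk := fun (z : S3' × ℝ) => h.nk false z.1 _ (exp_pos z.2)
  have i := p.iso.iso _ (nk z0 (Rod53.uB_ne _)).1
  have e0 : v (pr K d.cv z0) ∘L gc ξ₀ (pr K d.cv z0) (dir (L4 z0.1).2 ^ k) = v (pr K d.cv z0) := by
    rw [show dir (L4 z0.1).2 = 1 from dir_uB _, one_zpow, gc]
    simp only [Circle.coe_one, Complex.one_re, Complex.one_im, one_smul, zero_smul, add_zero]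
    exact i.idem
  refine ⟨?_, by rw [e0, ← ad_trn]; exact i.src, ?_⟩
  swap
  · rw [e0, C.inv, gx_gc, dk_z0, dir_uB, Circle.exp_intCast_mul]; rfl
  rintro z ⟨⟨w, hw⟩, -⟩
  have z2 : (L4 z.1).2 ≠ 0 := hw ▸ Rod53.uB_ne w
  have th : ∀ z : S3' × ℝ, (L4 z.1).2 ≠ 0 → d.Ds.w false (pr K d.cv z) ≠ 0 ∧
      dir (d.Ds.w false (pr K d.cv z)) = dir (L4 z.1).2 ^ 4 := fun z hz => by
    obtain ⟨-, -, ρ, k1, k2⟩ := nk z hz
    exact ⟨k2 ▸ mul_ne_zero (by exact_mod_cast k1.ne') (Circle.coe_ne_zero _),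
      (congrArg dir k2).trans (Glue52.dir_mul k1 _)⟩
  have o : pr K d.cv z ∈ d.Ds.O false := (nk z z2).1
  obtain ⟨a, ha⟩ : ∃ a : ℝ, dir (d.Ds.w false (pr K d.cv z)) ∈ Circle.exp '' Ioo (a - π) (a + π) :=
    ⟨_, mem_arc _⟩
  obtain ⟨S, s1, s2, s3⟩ := mem_nhds_iff.1 (inter_mem (inter_mem ((f.op.inter ch.op).mem_nhds
    ⟨C.m z, o⟩) ((ch.sw _ o).continuousAt.eventually_ne (th z z2).1))
    ((Rod53.cm_dir (ch.sw _ o) (th z z2).1).continuousAt
      ((isLocalHomeomorph_circleExp.isOpenMap _ isOpen_Ioo).mem_nhds ha)))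
  have s4 : S ⊆ En0 K := fun x hx => (s1 hx).1.1.1
  have s5 : S ⊆ d.Ds.O false := fun x hx => (s1 hx).1.1.2
  have c2 := fun x hx => sa_br (Rod53.cm_dir (ch.sw x (s5 hx)) (s1 hx).1.2) (s1 hx).2
  obtain ⟨a', ha'⟩ : ∃ a' : ℝ, k / 4 * br a (dir (d.Ds.w false (pr K d.cv z))) + a' =
    k * Complex.arg (dir (L4 z.1).2) := ⟨_, add_sub_cancel _ _⟩
  refine ⟨S, _, s2, s3, s4, (loc_tw h f R e s2 s4 s5 (fun x hx => (s1 hx).1.2) c2 a').comp
    (ps_pi (p.iso.mono s5) (p.par.mono s5)), ?_⟩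
  have l2 : ContinuousAt (fun z : S3' × ℝ => (L4 z.1).2) z :=
    (L4.continuous.comp (continuous_subtype_val.comp continuous_fst)).snd.continuousAt
  let ρ : S3' × ℝ → Circle := fun z =>
    Circle.exp (k / 4 * br a (dir (d.Ds.w false (pr K d.cv z))) + a') / dir (L4 z.1).2 ^ k
  have r1 : ρ z = 1 := by simp only [ρ, ha', Circle.exp_intCast_mul, Circle.exp_arg, div_self']
  have r4 : ∀ z' : S3' × ℝ, (L4 z'.1).2 ≠ 0 → ρ z' ^ 4 = Circle.exp (4 * a') := fun z' hz => by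
    rw [div_pow, ← Circle.exp_natCast_mul, ← zpow_natCast, ← zpow_mul, mul_comm k, zpow_mul, zpow_natCast,
      ← (th z' hz).2, div_eq_iff_eq_mul, ← exp_br a (dir (d.Ds.w false (pr K d.cv z'))),
      ← Circle.exp_intCast_mul, ← Circle.exp_add, exp_br]
    congr 1
    push_cast
    ring
  have rc : ContinuousAt ρ z := (Circle.exp.continuous.continuousAt.comp
    ((((c2 _ s3).continuousAt.comp C.c.continuousAt).const_mul _).add_const _)).div'
    (((Glue52.contMDiffAt_dir z2).continuousAt.comp (f := fun z : S3' × ℝ => (L4 z.1).2) l2).zpow k)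
  filter_upwards [l2.eventually_ne z2, (Complex.continuous_re.continuousAt.comp
    (continuous_subtype_val.continuousAt.comp rc)).eventually (lt_mem_nhds (show (0 : ℝ) < (ρ z : ℂ).re by
      rw [r1]; simp))] with z' k1 k2
  obtain ⟨-, -, k3⟩ := root4 (ζ := ρ z') (by
    rw [← Circle.coe_pow, r4 z' k1, ← r4 z z2, r1, one_pow, Circle.coe_one])
  rw [comp_apply, gx_gc, div_eq_one.1 (Circle.ext (k3 k2) : ρ z' = 1)]
  rfl

theorem ex_tw (tw : TwStmt I M (Option κ) (lam ⊕ lam)) (A : Ab B G Ω c₀ ξ₀) {j k : ℤ} (e : j * d.μ = k / 2) :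
    ∃ (c : Cfg M (Option κ) (lam ⊕ lam) r) (ξ : M → c.m.A) (v : Bool → M → CL c₀.m.V c.m.V) (ε : ℤ),
      Ab B G Ω c ξ ∧ Twi G.F d.Ds.O (fun x => dir (d.Ds.u false x) ^ (-k))
        (fun b => (j / 2 : ℝ) • d.al b) c₀ ξ₀ c ξ v ε := by
  refine tw r B G Ω c₀ ξ₀ d.Ds.O _ _ h.ins.hB h.ins.hG h.ins.cl A (fun b => (d.Ds.ch b).op)
    (ext fun x => ((d.Ds.cov x).trans Bool.exists_bool).symm)
    (fun b => ⟨(sm_al h b).smul _, ((h.fr b).dg_fr (h.lo.dg.mono (subset_univ _))).smul _⟩) fun x hx => ?_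
  have s := Rod53.cm_dir ((d.Ds.ch false).su x hx.1) (d.Ds.ne false x hx)
  refine ⟨Line51.CSm.zpow s _, ?_⟩
  rw [show Line51.ang I (fun x => dir (d.Ds.u false x) ^ (-k)) x = _ from Line51.ang_zpow s _,
    Pi.smul_apply, Pi.smul_apply, Mdl.al, Lns4.al_chg _ _ _ (by norm_num) hx]
  match_scalars
  · ring
  · linear_combination -2 * e

theorem fl_tw (f₀ : ∀ x ∈ Ω, fm G.F c₀.m c₀.W ξ₀ x = 0) (A : Ab B G Ω c ξ) {s : ℝ} {e : M → Circle}
    {v : Bool → M → CL c₀.m.V c.m.V} {ε : ℤ} (T : Twi G.F d.Ds.O e (fun b => s • d.al b) c₀ ξ₀ c ξ v ε)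
    (hx : x ∈ En0 K) : c.m.Fg G.F c.W x = 0 := by
  obtain ⟨b, hb⟩ := (d.Ds.cov x).1 (sub h hx)
  refine flat_ab h.ins.hB h.ins.hG A (sub h hx) ?_
  rw [T.fm b x hb, f₀ x (sub h hx), Dr59.dM_smul Dr59.ne0 _ (sm_al h b x hb), ← h.wa b x hb,
    h.ins.off x hx, smul_zero, add_zero]

omit h in
theorem dz_of [ConnectedSpace Y.M] {β : YC Y.M κ (lam ⊕ lam)} (b : Bs D β) {η : Y.M → β.m.A}
    (R : Abel74.Red D.Z (cy β).m (cy β).W fun q => η q.1) (y : Y.M)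
    (m : ∀ ζ, ParY D β ζ → opL (η y) * opL (ζ y) = opL (ζ y) * opL (η y)) : dz D β = 1 := by
  obtain ⟨p, n⟩ := of_red b.ok b.adm R
  refine dz_one p (fun e => by simpa [e] using n y) fun ζ p' => ?_
  have e : ‖η y‖ ^ 2 • ζ y = ⟪η y, ζ y⟫_ℝ • η y :=
    Std94.g_comm b.ok.B (Std94.pmx b.adm.adm.ok (y, 0)) (p.mem y) (p'.mem y) (m ζ p')
  refine ⟨⟪η y, ζ y⟫_ℝ / 16, funext fun y' => sub_eq_zero.1 (norm_eq_zero.1 ((norm_par b.ok b.adm
    ((parS D β).sub_mem p' ((parS D β).smul_mem _ p)) y' y).trans (norm_eq_zero.2 ?_)))⟩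
  rw [n y] at e
  rw [Pi.sub_apply, Pi.smul_apply, div_eq_inv_mul, mul_smul, ← e, smul_smul]
  norm_num

omit h in
variable (D I M) in
/-- **LEAF CL** -/
theorem cl (tw : TwStmt I M (Option κ) (lam ⊕ lam)) : ClStmt I M D := by
  intro r B G K Ω d c₀ ξ₀ β η h A f₀ b R
  have hB := h.ins.hB
  have hG := h.ins.hG
  have C := cov (jsub h) h.cv
  have o : IsOpen (En0 K) := isOpen_Ioi.preimage K.cont
  have F := fo_of hB hG h.ins.cl.isOpen ((admOn_univ.2 A.adm).mono (subset_univ _))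
    fun x hx => flat_ab hB hG A hx (f₀ x hx)
  have F₀ := F.mono o (sub h)
  have R₀ := (F.rp A.rd.toRedOn).mono (sub h)
  have Fb := fo_bb (jsub h) hB hG b
  have Rb : Rp G (bb K β).W (En0 K) fun x => η (K.ψ.symm x).1 :=
    ⟨ps_push (jsub h) (red_ps (ad_cy b.ok b.adm) R), fun _ _ => R.mem _, fun _ _ => R.sq _⟩
  obtain ⟨V, k, k2, v, q⟩ := C.mono F₀ Fb R₀ Rb
  obtain ⟨j, j1, j2, j3⟩ : ∃ j : ℤ, |j| = |k| ∧ j * d.μ = k / 2 ∧ (Odd j → Odd k) := by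
    rcases (abs_eq (by norm_num)).1 h.hμ with e | e
    exacts [⟨k, rfl, by rw [e]; ring, id⟩, ⟨-k, abs_neg k, by rw [e]; push_cast; ring, odd_neg.1⟩]
  obtain ⟨c, ξ, w, ε, A', T⟩ := ex_tw h tw A j2
  have f : ∀ x ∈ En0 K, c.m.Fg G.F c.W x = 0 := fun x => fl_tw h f₀ A' T
  obtain ⟨u, u1, u2⟩ := C.pi F₀ Fb (fo_of hB hG o ((admOn_univ.2 A'.adm).mono (subset_univ _)) f) R₀ v
    (mn_tw h F₀ R₀ j2 (T.pi false)) ((isPreconnected_range Rod53.isOE_uB.contMDiff.continuous).prod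
      isPreconnected_univ) ⟨⟨_, rfl⟩, trivial⟩ (dk_z0 ▸ ⟨⟨_, rfl⟩, trivial⟩)
  refine ⟨j, c, ξ, j1 ▸ k2, A', ⟨w, -k, ε, (abs_neg k).trans j1.symm, T⟩,
    std_of (jsub h) b A'.adm f ⟨u1, u2⟩, fun hj => ?_⟩
  have := h.cv.sj.connectedSpace h.cv.ld.contMDiff.continuous
  rw [dz_of b R (K.ψ.symm (pr K d.cv z0)).1 fun ζ p' => ?_]
  · norm_num
  have pz : PS G (bb K β).W (bb K β).W (En0 K) fun x => opL (ζ (K.ψ.symm x).1) :=
    ps_push (jsub h) (ps_par b.ok b.adm p')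
  have m := C.comm F₀ Fb F (sub h) (h.ins.sc.2 _ (sub h (C.m _))) R₀ Rb v (j3 hj) q pz
  exact m

end Crest.Agent.X212.Cl59
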