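import Crest.Agent.X212.Clr59.Hk
import Crest.Agent.X212.Abel74.Iso

/-!
# Row 212, LIX-CL (helper59), file 1: parallel intertwiners lifted along a covering

`LP` : lifted parallel intertwiners;  `Cov` : a covering with a deck generator of order four;
`Cov.mono` : the monodromy;  `Cov.pi` : equal monodromy;  `Cov.comm` : odd monodromy.
-/

set_option autoImplicit false
set_option linter.unusedSectionVars false
set_option maxHeartbeats 400000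
noncomputable section
open Set Function Filter Topology Quaternion Real
open scoped ContDiff Manifold InnerProductSpace

namespace Crest.Agent.X212.Cl59
open An Sob92 Wz78 Pj41 Dfl49 Clr59
open Std94 (Itx Pix Fx Bx PMx Xi S4 hs pmx_on Xi_comp trn_Xi Xi_inj hs_Xi Xi_mul)

variable {E : Type} [NormedAddCommGroup E] [NormedSpace ℝ E] [FiniteDimensional ℝ E]
  [MeasurableSpace E] [BorelSpace E]
  {HM : Type} [TopologicalSpace HM] {I : ModelWithCorners ℝ E HM} [I.Boundaryless]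
  {M : Type} [TopologicalSpace M] [ChartedSpace HM M] [IsManifold I ∞ M]
  [MeasurableSpace M] {ι : Type} [Fintype ι] {lam : Type} [Fintype lam]
  {B : Base M ι lam} {G : Geo I M ι lam} {m m' m'' : Md M ι lam} {W : m.Cn} {W' : m'.Cn} {W'' : m''.Cn}
  {S O : Set M} {x : M} {u : M → CL m.V m'.V} {ξ : M → m.A} {η ζ : M → m'.A}

variable (B G) in
/-- flat connections over `O` -/
structure Fo (W : m.Cn) (O : Set M) : Prop where
  hB : B.OK I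
  hG : G.F.P = B.P
  op : IsOpen O
  ok : OKOn I B m O
  cn : ConnOn B G m W O
  fl : ∀ x ∈ O, m.Fg G.F W x = 0

theorem Fo.two (h : Fo B G W O) (h' : Fo B G W' O) : Two B G W W' O :=
  ⟨h.hB, h.hG, h.op, h.ok, h'.ok, h.cn, h'.cn⟩

theorem Fo.mono (h : Fo B G W O) (hS : IsOpen S) (s : S ⊆ O) : Fo B G W S :=
  ⟨h.hB, h.hG, hS, h.ok.mono s, h.cn.mono s, fun x hx => h.fl x (s hx)⟩

theorem ps_trn (k : PS G W W' S u) (h : Fo B G W O) (h' : Fo B G W' O) (s : S ⊆ O) :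
    PS G W' W S fun x => trn (u x) := by
  have := k.par.symm k.sm (fun a x hx => h.cn.sk a x (s hx)) fun a x hx => h'.cn.sk a x (s hx)
  have t := fun x hx => FSm.ad (k.sm x hx)
  simp only [ad_trn] at this t
  exact ⟨t, fun x hx => itx_trn (pmx_on h.ok (s hx)) (pmx_on h'.ok (s hx)) (k.it x hx), this⟩

theorem ps_pi (i : Iso0 I m m' S u) (p : Par0 G.F W W' S u) : PS G W W' S u :=
  have ap : ∀ {S T : CL m.V m'.V}, S = T → ∀ v, S v = T v := fun e v => by rw [e]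
  ⟨i.su, fun x hx => ⟨ap (i.iso x hx).left, ap (i.iso x hx).idem, fun a y => (ap (i.ρ x hx a) y).symm,
    fun y => (ap (i.J x hx) y).symm, fun s y => (ap (i.j x hx s) y).symm⟩, p⟩

theorem Fo.p (h : Fo B G W O) : PS G W W O m.p := ps_pi (Iso0.refl h.ok) h.cn.par0_refl

theorem Fo.ex (h : Fo B G W S) (h' : Fo B G W' S) (hx : x ∈ S) (s : Sur {x} S) {T : CL m.V m'.V}
    (i : Itx m m' x T) : ∃ u, PS G W W' S u ∧ u x = T := by
  have t := h.two h'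
  have f := t.flt h.fl h'.fl
  obtain ⟨U, h1, -, -, h4⟩ := f.exists_loc hx
  obtain ⟨v, k1, k2⟩ := h4 x (mem_of_mem_nhds h1) T ((t.pix hx).2 i)
  obtain ⟨w, w1, w2⟩ := s _ _ f.ls v (by rintro _ rfl; exact mem_of_superset h1 k2)
  exact ⟨w, ps_of t fun y hy => (w1 y hy).self_of_nhds, (w2 rfl).trans k1⟩

variable (G) in
/-- a parallel unit section over `O` -/
structure Rp (W : m.Cn) (O : Set M) (ξ : M → m.A) : Prop where
  ps : PS G W W O fun x => opL (ξ x)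
  mem : ∀ x ∈ O, ξ x ∈ m.gS x
  sq : ∀ x ∈ O, opL (ξ x) * opL (ξ x) = -m.p x

theorem Rp.mono (r : Rp G W O ξ) (s : S ⊆ O) : Rp G W S ξ :=
  ⟨r.ps.mono s, fun x hx => r.mem x (s hx), fun x hx => r.sq x (s hx)⟩

theorem Fo.rp (h : Fo B G W O) (r : Abel74.RedOn G.F m W O ξ) : Rp G W O ξ :=
  ⟨⟨fun x hx => SA.clm opL (r.sm x hx), fun x hx =>
    let ⟨_, _, _, f⟩ := Std94.exists_fx h.hB (pmx_on h.ok hx); f.itx_of_mem (r.mem x hx), fun x hx a => by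
      have := opL_nab (e := G.F.e) (W := W) a (r.sm x hx)
      rw [r.par x hx, map_zero] at this
      exact (add_sub_assoc _ _ _).trans this⟩, r.mem, r.sq⟩

/-- the gauge `exp (t ξ)` -/
theorem Rp.gx {W' : m.Cn} (r : Rp G W S ξ) (h : Fo B G W S) {t : M → ℝ} (ht : ∀ x ∈ S, SA I t x)
    (e : ∀ a, ∀ x ∈ S, W' a x = W a x - G.F.D a t x • opL (ξ x)) : PS G W W' S (gx m ξ t) := by
  have p := h.p
  have k := r.ps
  have s1 : ∀ x ∈ S, SA I (fun y => cos (t y)) x := fun x hx => (contDiff_cos.contMDiff _).comp x (ht x hx)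
  have s2 : ∀ x ∈ S, SA I (fun y => sin (t y)) x := fun x hx => (contDiff_sin.contMDiff _).comp x (ht x hx)
  refine ⟨fun x hx => (SA.smul (s1 x hx) (p.sm x hx)).add (SA.smul (s2 x hx) (k.sm x hx)),
    fun x hx => ?_, fun x hx a => ?_⟩
  · have i := p.it x hx
    have i' := k.it x hx
    exact ⟨fun y => by simp [Clr59.gx, i.pl, i'.pl], fun y => by simp [Clr59.gx, i.pr, i'.pr],
      fun a y => by simp [Clr59.gx, i.ρ, i'.ρ], fun y => by simp [Clr59.gx, i.J, i'.J],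
      fun s y => by simp [Clr59.gx, i.j, i'.j]⟩
  · have p1 := p.par x hx a
    have p2 := k.par x hx a
    have xp : opL (ξ x) * m.p x = opL (ξ x) := ContinuousLinearMap.ext (k.it x hx).pr
    have d1 : dv I (G.F.e a) (fun y => cos (t y)) x = -sin (t x) * G.F.D a t x :=
      (dv_comp (ht x hx).md (hasDerivAt_cos _).hasFDerivAt).trans (by simp [mul_comm, Pre.D_def])
    have d2 : dv I (G.F.e a) (fun y => sin (t y)) x = cos (t x) * G.F.D a t x :=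
      (dv_comp (ht x hx).md (hasDerivAt_sin _).hasFDerivAt).trans (by simp [mul_comm, Pre.D_def])
    rw [Pre.D_def] at p1 p2 ⊢
    rw [show Clr59.gx m ξ t = fun y => cos (t y) • m.p y + sin (t y) • opL (ξ y) from rfl,
      dv_add' (SA.smul (s1 x hx) (p.sm x hx)) (SA.smul (s2 x hx) (k.sm x hx)),
      dv_smul (SA.md (s1 x hx)) (p.sm x hx).md, dv_smul (SA.md (s2 x hx)) (k.sm x hx).md, e a x hx]
    simp only [d1, d2, ← ContinuousLinearMap.mul_def, mul_add, add_mul, sub_mul, mul_smul_comm,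
      smul_mul_assoc, r.sq x hx, xp] at p1 p2 ⊢
    rw [eq_neg_of_add_eq_zero_left ((add_sub_assoc _ _ _).symm.trans p1),
      eq_neg_of_add_eq_zero_left ((add_sub_assoc _ _ _).symm.trans p2)]
    module

section pt
variable {U : Fin 4 → ι → ℝ} {s₀ : Eu lam} {f : S4 →ₗᵢ[ℝ] m.V} {f' : S4 →ₗᵢ[ℝ] m'.V}

theorem Rp.n (r : Rp G W O ξ) (hx : x ∈ O) (F : Fx B m x U s₀ f) :
    ∃ n : ℍ, n.re = 0 ∧ ‖n‖ = 1 ∧ opL (ξ x) = Xi f f n := by
  obtain ⟨n, h1, h2⟩ := (F.mem_g_iff _).1 (r.mem x hx)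
  have := r.sq x hx
  rw [h2, opL_hsL, Xi_mul, ← F.Xi_one, ← map_neg] at this
  exact ⟨n, h1, unit_of (by rw [star_eq_neg.2 h1, neg_mul, Xi_inj _ _ this, neg_neg]), by rw [h2, opL_hsL]⟩

theorem unit_iso (F : Fx B m x U s₀ f) (F' : Fx B m' x U s₀ f') {T : CL m.V m'.V} (i : Itx m m' x T)
    (n : trn T ∘L T = m.p x) : ∃ a : ℍ, ‖a‖ = 1 ∧ T = Xi f' f a := by
  obtain ⟨a, rfl⟩ := (F.itx_iff F' T).1 i
  rw [trn_Xi, Xi_comp, ← F.Xi_one] at n
  exact ⟨a, unit_of (Xi_inj _ _ n), rfl⟩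

theorem iso_unit (F : Fx B m x U s₀ f) {a : ℍ} (h : ‖a‖ = 1) : trn (Xi f' f a) ∘L Xi f' f a = m.p x := by
  rw [trn_Xi, Xi_comp, star_mul_unit h, F.Xi_one]

end pt

/-! ### lifts -/

variable {Z : Type} [TopologicalSpace Z] {ϖ : Z → M} {τ : Z → Z} {z z₀ : Z} {V V' : Z → CL m.V m'.V}
  {C : Set Z}

variable (G) in
/-- `V` is the lift of a parallel intertwiner near `z` -/
def LP (W : m.Cn) (W' : m'.Cn) (O : Set M) (ϖ : Z → M) (V : Z → CL m.V m'.V) (z : Z) : Prop :=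
  ∃ S u, IsOpen S ∧ ϖ z ∈ S ∧ S ⊆ O ∧ PS G W W' S u ∧ V =ᶠ[𝓝 z] u ∘ ϖ

theorem lp_of (k : PS G W W' O u) (hO : IsOpen O) (hz : ϖ z ∈ O) : LP G W W' O ϖ (fun z => u (ϖ z)) z :=
  ⟨O, u, hO, hz, Subset.rfl, k, .rfl⟩

namespace LP
variable (k : LP G W W' O ϖ V z)
include k

theorem it : Itx m m' (ϖ z) (V z) :=
  let ⟨_, _, _, a2, _, a4, a5⟩ := k; a5.self_of_nhds ▸ a4.it _ a2

theorem comp {L : Z → CL m'.V m''.V} (k' : LP G W' W'' O ϖ L z) : LP G W W'' O ϖ (fun z => L z ∘L V z) z :=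
  let ⟨S, _, a1, a2, a3, a4, a5⟩ := k
  let ⟨S', _, b1, b2, _, b4, b5⟩ := k'
  ⟨S ∩ S', _, a1.inter b1, ⟨a2, b2⟩, inter_subset_left.trans a3,
    (a4.mono inter_subset_left).comp (b4.mono inter_subset_right),
    a5.mp (b5.mono fun _ e e' => congrArg₂ (· ∘L ·) e e')⟩

theorem trn (h : Fo B G W O) (h' : Fo B G W' O) : LP G W' W O ϖ (fun z => An.trn (V z)) z :=
  let ⟨S, _, a1, a2, a3, a4, a5⟩ := k
  ⟨S, _, a1, a2, a3, ps_trn a4 h h' a3, a5.mono fun _ e => congrArg An.trn e⟩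

omit k in
theorem deck (k : LP G W W' O ϖ V (τ z)) (c : Continuous τ) (e : ∀ z, ϖ (τ z) = ϖ z) :
    LP G W W' O ϖ (fun z => V (τ z)) z :=
  let ⟨S, u, a1, a2, a3, a4, a5⟩ := k
  ⟨S, u, a1, e z ▸ a2, a3, a4, ((c.tendsto z).eventually a5).mono fun y k =>
    (k : V (τ y) = u _).trans (congrArg u (e y))⟩

end LP

section ls
variable (h : Fo B G W O) (h' : Fo B G W' O) (c : Continuous ϖ) (hm : ∀ z, ϖ z ∈ O)
include h h' c hm

theorem ls : LS univ fun z V => LP G W W' O ϖ V z := by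
  have t := h.two h'
  have f := t.flt h.fl h'.fl
  refine ⟨fun z V V' ⟨S, u, a1, a2, a3, a4, a5⟩ e => ⟨S, u, a1, a2, a3, a4, e.trans a5⟩,
    fun z _ V V' ⟨S, u, a1, a2, a3, a4, a5⟩ ⟨S', u', b1, b2, b3, b4, b5⟩ e => ?_, fun z _ => ?_⟩
  · have := f.ls.idn _ (hm z) u u' (mem_of_superset (a1.mem_nhds a2) (a4.pa (t.mono a1 a3)))
      (mem_of_superset (b1.mem_nhds b2) (b4.pa (t.mono b1 b3))) ((c.tendsto z).frequently
        (e.mp (a5.mp (b5.mono fun y k1 k2 k3 => k2.symm.trans (k3.trans k1)))))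
    exact a5.trans (EventuallyEq.trans (c.tendsto z this) b5.symm)
  · obtain ⟨U, h1, h2, h3, h4⟩ := f.exists_loc (hm z)
    refine ⟨ϖ ⁻¹' U, c.tendsto z h1, fun y hy V k => ?_⟩
    obtain ⟨s, k1, k2⟩ := h4 _ hy (V y) ((t.pix (hm y)).2 k.it)
    exact ⟨s ∘ ϖ, fun w hw => ⟨U, s, h2, hw, h3, ps_of (t.mono h2 h3) k2, .rfl⟩, k1⟩

theorem exists_lp (s : Sur {z₀} univ) {T : CL m.V m'.V} (i : Itx m m' (ϖ z₀) T) :
    ∃ V, (∀ z, LP G W W' O ϖ V z) ∧ V z₀ = T := by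
  have t := h.two h'
  obtain ⟨U, h1, h2, h3, h4⟩ := (t.flt h.fl h'.fl).exists_loc (hm z₀)
  obtain ⟨v, k1, k2⟩ := h4 _ (mem_of_mem_nhds h1) T ((t.pix (hm z₀)).2 i)
  obtain ⟨w, w1, w2⟩ := s _ _ (ls h h' c hm) (v ∘ ϖ) (by
    rintro _ rfl; exact ⟨U, v, h2, mem_of_mem_nhds h1, h3, ps_of (t.mono h2 h3) k2, .rfl⟩)
  exact ⟨w, fun z => w1 z trivial, (w2 rfl).trans k1⟩

end ls

theorem desc (o : IsOpenMap ϖ) (sj : ∀ x ∈ O, ∃ z, ϖ z = x) (k : ∀ z, LP G W W' O ϖ V z)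
    (e : V.FactorsThrough ϖ) : ∃ u, PS G W W' O u ∧ ∀ z, u (ϖ z) = V z := by
  have a : ∀ x ∈ O, ∃ S u, x ∈ S ∧ PS G W W' S u ∧ extend ϖ V 0 =ᶠ[𝓝 x] u := fun x hx => by
    obtain ⟨z, rfl⟩ := sj x hx
    obtain ⟨S, u, -, a2, -, a4, a5⟩ := k z
    exact ⟨S, u, a2, a4, o.nhds_le z (a5.mono fun y hy => (e.extend_apply _ y).trans hy)⟩
  refine ⟨extend ϖ V 0, ⟨fun x hx => ?_, fun x hx => ?_, fun x hx a' => ?_⟩, e.extend_apply _⟩ <;>
    obtain ⟨S, u, a1, a2, a3⟩ := a x hx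
  · exact (a2.sm x a1).congr_of_eventuallyEq a3
  · exact a3.self_of_nhds ▸ a2.it x a1
  · rw [Pre.D_def, dv_congr a3, a3.self_of_nhds]; exact a2.par x a1 a'

/-- a simply connected covering of `O` whose deck group is generated by `τ`, of order four -/
structure Cov (O : Set M) (ϖ : Z → M) (τ : Z → Z) (z₀ : Z) : Prop where
  c : Continuous ϖ
  o : IsOpenMap ϖ
  m : ∀ z, ϖ z ∈ O
  sj : ∀ x ∈ O, ∃ z, ϖ z = x
  cτ : Continuous τ
  inv : ∀ z, ϖ (τ z) = ϖ z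
  four : τ (τ (τ (τ z₀))) = z₀
  fib : ∀ z z', ϖ z = ϖ z' → ∃ k : ℕ, z' = τ^[k] z
  con : IsPreconnected (univ : Set Z)
  sur : Sur {z₀} univ

theorem ex_four {n : ℍ} (h0 : n.re = 0) (h1 : ‖n‖ = 1) {t : ℝ} (e : ex t n * ex t n * ex t n * ex t n = 1) :
    ∃ k : ℤ, |k| ≤ 2 ∧ ex t n = ex (k * (π / 2)) n := by
  simp only [ex_mul h0 h1] at e
  have := congrArg QuaternionAlgebra.re e
  rw [ex_re h0, re_one, cos_eq_one_iff] at this
  obtain ⟨l, hl⟩ := this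
  refine ⟨(l + 1) % 4 - 1, abs_le.2 ⟨by omega, by omega⟩, ?_⟩
  have : t = (((l + 1) % 4 - 1 : ℤ) : ℝ) * (π / 2) + ((l + 1) / 4 : ℤ) * (2 * π) := by
    have : (l : ℝ) = (((l + 1) % 4 - 1 : ℤ) : ℝ) + 4 * ((l + 1) / 4 : ℤ) := by exact_mod_cast (by omega)
    linear_combination (π / 2) * this - hl / 4
  rw [ex, ex, this, cos_add_int_mul_two_pi, sin_add_int_mul_two_pi]

/-- the monodromy data of `W'` in the frame `W` -/
structure Mn (G : Geo I M ι lam) (W : m.Cn) (W' : m'.Cn) (O : Set M) (ϖ : Z → M) (τ : Z → Z) (z₀ : Z)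
    (ξ : M → m.A) (C : Set Z) (V : Z → CL m.V m'.V) (k : ℤ) : Prop where
  lp : ∀ z ∈ C, LP G W W' O ϖ V z
  iso : trn (V z₀) ∘L V z₀ = m.p (ϖ z₀)
  mon : V (τ z₀) = V z₀ ∘L gx m ξ (fun _ => k * (π / 2)) (ϖ z₀)

namespace Cov
variable (c : Cov O ϖ τ z₀) (h : Fo B G W O) (h' : Fo B G W' O)
include c h h'

theorem eq (k : ∀ z, LP G W W' O ϖ V z) (k' : ∀ z, LP G W W' O ϖ V' z) (e : V z₀ = V' z₀) (z : Z) :
    V z = V' z :=
  (ls h h' c.c c.m).eqOn c.con Subset.rfl (fun z _ => k z) (fun z _ => k' z) (mem_univ z₀) e (mem_univ z)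

theorem nrm (k : ∀ z, LP G W W' O ϖ V z) (e : trn (V z₀) ∘L V z₀ = m.p (ϖ z₀)) (z : Z) :
    trn (V z) ∘L V z = m.p (ϖ z) :=
  c.eq h h (fun z => (k z).comp ((k z).trn h h')) (fun z => lp_of h.p h.op (c.m z)) e z

/-- **the monodromy** -/
theorem mono (r : Rp G W O ξ) (r' : Rp G W' O η) : ∃ V k, |k| ≤ 2 ∧ Mn G W W' O ϖ τ z₀ ξ univ V k ∧
    V z₀ ∘L opL (ξ (ϖ z₀)) = opL (η (ϖ z₀)) ∘L V z₀ := by
  obtain ⟨U, s₀, f, F⟩ := Std94.exists_fx h.hB (pmx_on h.ok (c.m z₀))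
  obtain ⟨f', F'⟩ := F.toBx.exists_fx (pmx_on h'.ok (c.m z₀))
  obtain ⟨n, n0, n1, n2⟩ := r.n (c.m z₀) F
  obtain ⟨n', m0, m1, m2⟩ := r'.n (c.m z₀) F'
  obtain ⟨a, a1, a2⟩ := conj n1 m1 (n0.trans m0.symm)
  obtain ⟨V, k, e⟩ := exists_lp h h' c.c c.m c.sur ((F.itx_iff F' _).2 ⟨a, rfl⟩)
  have i := e ▸ iso_unit (f' := f') F a1
  have q : V z₀ ∘L opL (ξ (ϖ z₀)) = opL (η (ϖ z₀)) ∘L V z₀ := by rw [e, n2, m2, Xi_comp, Xi_comp, a2]
  have q' := c.eq h h' (fun z => (lp_of r.ps h.op (c.m z)).comp (k z))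
    (fun z => (k z).comp (lp_of r'.ps h.op (c.m z))) q (τ z₀)
  obtain ⟨b, b1, b2⟩ := unit_iso F F' (c.inv z₀ ▸ (k (τ z₀)).it) (c.inv z₀ ▸ c.nrm h h' k i (τ z₀))
  simp only [c.inv, b2, n2, m2, Xi_comp] at q'
  have s := star_mul_unit a1
  have s' := mul_star_unit a1
  have w : star a * b * n = n * (star a * b) := by
    rw [mul_assoc, Xi_inj _ _ q', ← mul_assoc, ← mul_assoc, show star a * n' = n * star a from ?_]
    rw [← mul_one (star a * n'), ← s', ← mul_assoc, mul_assoc _ n', a2, ← mul_assoc, s, one_mul]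
  have w1 : ‖star a * b‖ = 1 := by rw [norm_mul, norm_star, a1, b1, mul_one]
  obtain ⟨t, ht⟩ : ∃ t, star a * b = ex t n := by
    have l := comm n0 n1 w
    have l2 : (star a * b).re ^ 2 + ⟪star a * b, n⟫_ℝ ^ 2 = 1 := by
      have := w1
      rw [l, unit_iff] at this
      have n3 := unit_iff.1 n1
      simp [n0] at this n3 ⊢
      linear_combination this - ⟪star a * b, n⟫_ℝ ^ 2 * n3
    obtain ⟨t, t1⟩ := (Complex.norm_eq_one_iff (⟨(star a * b).re, ⟪star a * b, n⟫_ℝ⟩ : ℂ)).1 (by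
      rw [← sq_eq_sq₀ (norm_nonneg _) zero_le_one, Complex.sq_norm, Complex.normSq_mk]; linarith)
    refine ⟨t, l.trans ?_⟩
    rw [ex, ← Complex.exp_ofReal_mul_I_re, ← Complex.exp_ofReal_mul_I_im, t1]
  have g : ∀ t : ℝ, PS G W W O (gx m ξ fun _ => t) := fun t =>
    r.gx h (fun _ _ => contMDiffAt_const) fun a x _ => by simp [Pre.D_def]
  have e2 : V (τ z₀) = V z₀ ∘L gx m ξ (fun _ => t) (ϖ z₀) := by
    rw [b2, e, gx_eq F n2, Xi_comp, ← ht, ← mul_assoc, s', one_mul]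
  have e3 := c.eq h h' (fun z => (k (τ z)).deck c.cτ c.inv)
    (fun z => (lp_of (g t) h.op (c.m z)).comp (k z)) e2
  have e4 := congrArg V c.four
  simp only [e3, c.inv, e, gx_eq F n2, Xi_comp] at e4
  obtain ⟨l, l1, l2⟩ := ex_four n0 n1 (t := t) (by
    rw [← one_mul (ex t n * _ * _ * _), ← s]
    simp only [mul_assoc] at e4 ⊢
    rw [Xi_inj _ _ e4])
  exact ⟨V, l, l1, ⟨fun z _ => k z, i, by rw [e2, gx_eq F n2, gx_eq F n2, l2]⟩, q⟩

/-- **equal monodromy** -/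
theorem pi (h'' : Fo B G W'' O) (r : Rp G W O ξ) {L : Z → CL m.V m''.V} {k : ℤ}
    (v : Mn G W W' O ϖ τ z₀ ξ univ V k) (l : Mn G W W'' O ϖ τ z₀ ξ C L k) (hC : IsPreconnected C)
    (h0 : z₀ ∈ C) (h1 : τ z₀ ∈ C) : ∃ u, Iso0 I m'' m' O u ∧ Par0 G.F W'' W' O u := by
  obtain ⟨U, s₀, f, F⟩ := Std94.exists_fx h.hB (pmx_on h.ok (c.m z₀))
  obtain ⟨f', F'⟩ := F.toBx.exists_fx (pmx_on h'.ok (c.m z₀))
  obtain ⟨f'', F''⟩ := F.toBx.exists_fx (pmx_on h''.ok (c.m z₀))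
  obtain ⟨n, n0, n1, n2⟩ := r.n (c.m z₀) F
  obtain ⟨a, a1, a2⟩ := unit_iso F F' (v.lp _ trivial).it v.iso
  obtain ⟨b, b1, b2⟩ := unit_iso F F'' (l.lp _ h0).it l.iso
  have p := fun z hz => ((l.lp z hz).trn h h'').comp (v.lp z trivial)
  obtain ⟨Φ, k1, k2⟩ := exists_lp h'' h' c.c c.m c.sur (p _ h0).it
  have e := (ls h'' h' c.c c.m).eqOn hC (subset_univ _) (fun z _ => k1 z) p h0 k2 h1
  have e1 : Φ (τ z₀) = Φ z₀ := by
    rw [e, k2]
    simp only [v.mon, l.mon, a2, b2, gx_eq F n2, Xi_comp, trn_Xi, star_mul]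
    rw [mul_assoc, ← mul_assoc _ _ (star b), mul_star_unit (norm_ex n0 n1 _), one_mul]
  have e2 := c.eq h'' h' (fun z => (k1 (τ z)).deck c.cτ c.inv) k1 e1
  obtain ⟨u, u1, u2⟩ := desc c.o c.sj k1 fun z z' q => by
    obtain ⟨j, rfl⟩ := c.fib _ _ q
    exact (congrFun (iterate_invariant (g := Φ) (funext e2) j) z).symm
  have t := h''.two h'
  refine ⟨u, t.iso0_of (u1.pa t) fun x hx => ?_, u1.par⟩
  obtain ⟨z, rfl⟩ := c.sj x hx
  refine Std94.hs_of_iso (pmx_on h''.ok hx) (u2 z ▸ c.nrm h'' h' k1 ?_ z)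
  rw [k2, a2, b2, trn_Xi f'' f, Xi_comp]
  exact iso_unit F'' (by rw [norm_mul, Quaternion.norm_star, a1, b1, mul_one])

/-- **odd monodromy**: parallel sections are multiples of `η` -/
theorem comm {Ω : Set M} (H : Fo B G W Ω) (s : O ⊆ Ω) (sc : Sur {ϖ z₀} Ω) (r : Rp G W O ξ)
    (r' : Rp G W' O η) {k : ℤ} (v : Mn G W W' O ϖ τ z₀ ξ univ V k) (hk : Odd k)
    (q : V z₀ ∘L opL (ξ (ϖ z₀)) = opL (η (ϖ z₀)) ∘L V z₀) (p : PS G W' W' O fun x => opL (ζ x)) :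
    opL (η (ϖ z₀)) * opL (ζ (ϖ z₀)) = opL (ζ (ϖ z₀)) * opL (η (ϖ z₀)) := by
  obtain ⟨U, s₀, f, F⟩ := Std94.exists_fx h.hB (pmx_on h.ok (c.m z₀))
  obtain ⟨f', F'⟩ := F.toBx.exists_fx (pmx_on h'.ok (c.m z₀))
  obtain ⟨n, n0, n1, n2⟩ := r.n (c.m z₀) F
  obtain ⟨n', -, -, m2⟩ := r'.n (c.m z₀) F'
  obtain ⟨a, a1, a2⟩ := unit_iso F F' (v.lp _ trivial).it v.iso
  obtain ⟨b, b2⟩ := (F'.itx_iff F' _).1 (p.it _ (c.m z₀))
  have X := fun z => ((v.lp z trivial).comp (lp_of p h.op (c.m z))).comp ((v.lp z trivial).trn h h')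
  obtain ⟨w, w1, w2⟩ := H.ex H (s (c.m z₀)) sc (X z₀).it
  have e := c.eq h h X (fun z => lp_of (w1.mono s) h.op (c.m z)) w2.symm
  have e1 := (e (τ z₀)).trans ((congrArg w (c.inv z₀)).trans (e z₀).symm)
  obtain ⟨j, rfl⟩ := hk
  have x1 : ex (((2 * j + 1 : ℤ) : ℝ) * (π / 2)) n = (-1 : ℝ) ^ j • n := by
    rw [ex, show ((2 * j + 1 : ℤ) : ℝ) * (π / 2) = π / 2 + j * π by push_cast; ring,
      cos_add_int_mul_pi, sin_add_int_mul_pi, cos_pi_div_two, sin_pi_div_two]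
    simp
  have x2 : ((-1 : ℝ) ^ j) * (-1 : ℝ) ^ j = 1 := by rw [← mul_zpow]; simp
  simp only [c.inv, v.mon, a2, b2, gx_eq F n2, Xi_comp, trn_Xi, x1, star_mul, Quaternion.star_smul,
    mul_smul_comm, smul_mul_assoc, smul_smul, x2, one_smul] at e1
  rw [a2, n2, m2, Xi_comp, Xi_comp] at q
  have e2 := congrArg (fun y => a * n * y * star a) (Xi_inj _ _ e1)
  have s1 := mul_star_unit a1
  have s2 := mul_star_unit n1
  have s3 : n' = a * n * star a := by rw [Xi_inj _ _ q, mul_assoc, s1, mul_one]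
  rw [m2, b2, Xi_mul, Xi_mul, s3]
  congr 1
  simp only [mul_assoc] at e2 ⊢
  rw [← mul_assoc n (star n), s2, one_mul, ← mul_assoc a (star a), s1, one_mul, mul_one] at e2
  exact e2.symm

end Cov

end Crest.Agent.X212.Cl59
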